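import Mathlib
import Vale.Agent.P229.Realize

/-!
Smooth local isometric realisation in Euclidean space of smooth metrics which are analytic in one
coordinate of some smooth chart.
-/

open Set Vale.Agent.P229
open scoped ContDiff

namespace Vale.Agent.Results.P229.AnalyticInOneCoordinate

theorem result :
    ∀ (Ω : Set (ℝ × ℝ)) (g : ℝ × ℝ → Matrix (Fin 2) (Fin 2) ℝ), IsOpen Ω →
      (∀ i j, ContDiffOn ℝ ∞ (fun q => g q i j) Ω) → (∀ q ∈ Ω, (g q).PosDef) →
      ∀ p ∈ Ω, HasSndAnalyticChart g p → LocallyRealizable g p :=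
  fun _ _ hΩ hsm hpd _ hp hc => realizable_of_chart hΩ hsm hpd hp hc

end Vale.Agent.Results.P229.AnalyticInOneCoordinate
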